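import Vale.Agent.P116.Pack.AreaBound
import Vale.Agent.P116.Pack.Limit
import Vale.Agent.P116.Pack.Normal
import Vale.Agent.P116.Pack.Line
import Vale.Agent.P116.Pack.Round
import Vale.Agent.P116.Pack.Reflect
import Vale.Agent.P116.Pack.CutBound
import Vale.Agent.P116.Pack.Koebe.Main
import Vale.Agent.P116.Pack.Wide.Null
import Vale.Agent.P116.Pack.Wide.Step
import Vale.Agent.P116.Pack.Wide.Main
import Vale.Agent.P116.Pack.Wide.Induct
import Vale.Agent.P116.Pack.Wide.Sphere

/-!
Koebe's circle-domain problem for domains whose complementary components are, off a countable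
closed family, packed or null.
-/

open Set Vale.Agent.P116 Vale.Agent.P116.Pack Vale.Agent.P116.Pack.Wide

namespace Vale.Agent.Results.P116.CountableExceptional

theorem result :
    ∀ G : Set (OnePoint ℂ), IsOpen G → IsConnected G →
      ((OnePoint.infty ∈ G ∧ MildBad ((fun z : ℂ => (z : OnePoint ℂ)) ⁻¹' G)ᶜ) ∨
        ∃ a : ℂ, (a : OnePoint ℂ) ∈ G ∧
          MildBad ((fun z : ℂ => (z : OnePoint ℂ)) ⁻¹' (invAt a '' G))ᶜ) →
        ∃ Ω, IsCircleDomain Ω ∧ ConformallyEquiv G Ω := by
  have hN := normal areaBound
  have hK := Koebe.finiteKoebe round reflect cutBound clusStmt limitStmt hN areaBound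
  have hS := stepBound areaBound clusStmt limitStmt hN hK (line areaBound clusStmt) nullCount
  have hB : ClosedBadStmt := closedBad piece nullLocal hS
    (mainStmt areaBound clusStmt limitStmt hN piece nullLocal hS)
  rintro G hGo hGc (⟨hinf, h⟩ | ⟨a, ha, h⟩)
  · exact wideSphere hB goodNull G hGo hGc hinf h
  · exact wideSphere_move hB goodNull G hGo hGc a ha h

end Vale.Agent.Results.P116.CountableExceptional
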