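import Mathlib
import Vale.Agent.P116.SymComponents

/-!
Koebe's circle-domain conjecture for domains whose nondegenerate complementary components are each
symmetric about one common line.
-/

open Set Vale.Agent.P116

namespace Vale.Agent.Results.P116.SymmetricComponents

theorem result :
    ∀ G : Set (OnePoint ℂ), IsOpen G → IsConnected G →
      (∀ x ∉ G, connectedComponentIn Gᶜ x = {x} ∨
        ∀ y ∈ connectedComponentIn Gᶜ x, sphConj y ∈ connectedComponentIn Gᶜ x) →
      ∃ Ω, IsCircleDomain Ω ∧ ConformallyEquiv G Ω :=
  symmetric_components_koebe

end Vale.Agent.Results.P116.SymmetricComponents
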